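import Crest.Agent.X212.Nrm67.Fmt
import Crest.Agent.X212.Nk89.Gw
import Crest.Agent.X212.Nk89.End
import Crest.Agent.X212.Gb50.Geo
import Crest.Agent.X212.Eqv71.Job

/-!
# Row 212, NRM (helper67): the normal form of a face object
-/

set_option autoImplicit false
set_option linter.unusedSectionVars false
noncomputable section
open scoped Manifold ContDiff Topology
open Set Function Filter

namespace Crest.Agent.X212.Nrm67
open An An.Job M Nd18 Gj67 Sob92 Pj41 Eqv71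
open Gl67 (ka ka_deriv cd_ka ka_nonneg)
open Gb50 (UC UB cd_ee)
open Cyf70 (IC)
open Nk89 (Fob Nul)
open Tmp64 (admOn_univ)

section gen
variable {E : Type} [NormedAddCommGroup E] [NormedSpace ℝ E] [FiniteDimensional ℝ E]
  [MeasurableSpace E] [BorelSpace E]
  {HM : Type} [TopologicalSpace HM] {I : ModelWithCorners ℝ E HM} [I.Boundaryless]
  {M : Type} [TopologicalSpace M] [ChartedSpace HM M] [IsManifold I ∞ M]
  [MeasurableSpace M] [T2Space M] [BorelSpace M] [SecondCountableTopology M]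
  {ι lam : Type} [Fintype ι] [Fintype lam] {F : Pre I M ι} {f h : M → ℝ}

theorem z0 {V : Type} [NormedAddCommGroup V] [NormedSpace ℝ V] :
    Sm I (0 : M → V) ∧ HasCompactSupport (0 : M → V) := ⟨contMDiff_const, .zero⟩

theorem cb_of (k : UC (⊤ : Filter Unit) (fun _ => F) fun _ => f) : F.Cb f :=
  k.imp fun _ k => eventually_top.1 k ()

theorem uc_of (k : F.Cb f) : UC (⊤ : Filter Unit) (fun _ => F) fun _ => f :=
  k.imp fun _ k => .of_forall fun _ => k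

theorem cb_ka (s : Sm I h) (k : ∀ a, F.Cb (F.D a h)) {e : ℝ} (he : |e| ≤ 1) (c : ℝ) (a : ι) :
    F.Cb (F.D a fun x => ka (e * h x + c)) := by
  refine cb_of (UC.dcomp (b := fun _ u => ka (e * u + c)) (fun _ => Neck67.cd_aff cd_ka e c) ?_
    (fun _ => s) (fun a => uc_of (k a)) a)
  convert UB.of (Neck67.sm_step.smul e) he fun _ : Unit => c using 3 with i u
  rw [Neck67.deriv_aff, funext fun s => (ka_deriv s).deriv]
  rfl

variable {Y : Mf 3} [CompactSpace Y.M] {κ : Type} [Fintype κ] {D : YD Y.I Y.M κ lam}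
  {B : Base M (Option κ) lam} {G : Geo I M (Option κ) lam} {β β' : YC Y.M κ lam} {ζ ζ' : Circle}

theorem elim_mono {K : Nk D B G} {r : ℕ} {c : Cfg M (Option κ) lam r} {d d' : ℝ} {l : Filter ℝ}
    (H : K.ELim d c β ζ l) (h : d' ≤ d) : K.ELim d' c β ζ l :=
  let ⟨u, S, a, b, f, H⟩ := H
  ⟨u, S, a, b, f, fun k => let ⟨C, H⟩ := H k; ⟨|C|, fun s hs =>
    have m := mul_le_mul (le_abs_self C) (Real.exp_le_exp.2 (mul_le_mul_of_nonneg_right
      (neg_le_neg h) (abs_nonneg s))) (Real.exp_pos _).le (abs_nonneg C)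
    ⟨(H s hs).op, (H s hs).m, fun a w j x hx => ((H s hs).A a w j x hx).trans m,
      fun w j x hx => ((H s hs).P w j x hx).trans m⟩⟩⟩

theorem brk_zero {N : ND Y.M lam} {q : YW Y.I Y.M →₀ ℝ} {k : ℝ} {j : ℕ}
    (H : N.Brk D q β ζ β' ζ' k j) (hj : j = 0) : β = β' ∧ ζ = ζ' ∧ k = 0 := by
  cases H with
  | nil => exact ⟨rfl, rfl, rfl⟩
  | bub => exact absurd hj (Nat.succ_ne_zero _)
  | mov => exact absurd hj (Nat.succ_ne_zero _)

end gen

variable {Wi : Type} {X : Mf 4} {A κ lam : Type} [Fintype A] [Fintype κ] [Fintype lam]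
  [DecidableEq lam] {M : Mark X A κ} {W : World M} {L : ML M lam} {Λ : Lns W L}
  {A' h : Type} [Fintype A'] [DecidableEq A'] [Fintype h] {r n : ℕ}
  {J : Job Wi Λ A' h r n} {σ : Cel A'} {a : A'} {x : A} {y : J.Obc (J.cf a)}

open Classical in
/-- the normal form -/
def dat (hb : ∀ b, Act J.m (J.cf a) x (some b) (J.Θ y.s))
    (c : Cfg (W.Z (J.cf a)).M (Option κ) (lam ⊕ lam) r) (ψ : ∀ i, (J.cut _ i).H (J.B _) c.m)
    (β : YC (J.xs x).Y.M κ (lam ⊕ lam)) (i : CL β.m.V c.m.V) (R₀ : ℝ) (U Up R : FD) :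
    Dat J σ a U.V Up.V R.V :=
  ⟨x, ⟨y.s, c, y.H, ψ, update y.β x fun _ => stab β c.m.J i, update y.ζ x 1, y.k, y.j, y.l⟩, hb,
    R₀, 0, 0, 0, 0, (stab β c.m.J i).m.p, (stab β c.m.J i).m.ρ, (stab β c.m.J i).m.j,
    (stab β c.m.J i).W, (stab β c.m.J i).Φ, 0, 0, 0, 0⟩

theorem dat_β (hb : ∀ b, Act J.m (J.cf a) x (some b) (J.Θ y.s))
    (c : Cfg (W.Z (J.cf a)).M (Option κ) (lam ⊕ lam) r) (ψ : ∀ i, (J.cut _ i).H (J.B _) c.m)
    (β : YC (J.xs x).Y.M κ (lam ⊕ lam)) (i : CL β.m.V c.m.V) (R₀ : ℝ) (U Up R : FD) (u : U.V) :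
    (dat (σ := σ) hb c ψ β i R₀ U Up R).β u = stab β c.m.J i := by
  rw [stab, Subsingleton.elim β.z 0]
  exact cfg_ext rfl rfl rfl (funext₂ fun b z => (congrArg (_ + ·) (map_zero opL)).trans
    (add_zero _)) rfl

theorem es (hJ : J.OK) (hd : J.hd a = some x)
    (hb : ∀ b, Act J.m (J.cf a) x (some b) (J.Θ y.s)) :
    Es (fun b => J.K _ x (some b) _ (hb b)) (fun b => -pm b) (fun b => bif b then atBot else atTop)
      5 := by
  have E := Cht98.endIn_J (θ := fun _ : ℝ => y.s) hJ (hb true).2.1 (hb true).2.2.1 contDiff_const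
    isClopen_univ isClopen_univ subset_rfl
  have hx : x ∈ cylW (J.cf a) := ⟨hd, (hb true).1⟩
  refine ⟨fun b => by cases b <;> simp [pm], fun b b' e => E.dis (i := (⟨x, hx⟩, b))
    (j := (⟨x, hx⟩, b')) fun k => e (congrArg Prod.snd k), fun b t ht =>
      (E.st (⟨x, hx⟩, b)).mem_J.2 (by rw [Cht98.wEnd_sg]; exact lt_of_lt_of_le (by norm_num) ht), ?_⟩
  convert E.cov using 1
  ext z
  simp only [mem_compl_iff, mem_iUnion, not_exists, mem_ofPred_eq]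
  refine ⟨fun k ⟨⟨x', hx'⟩, b⟩ e => ?_, fun k b e => not_lt.1 fun e' =>
    k (⟨x, hx⟩, b) ⟨e, by rwa [Cht98.wEnd_sg]⟩⟩
  obtain rfl : x' = x := Option.some.inj ((show J.hd a = some x' from hx'.1).symm.trans hd)
  have := e.2
  rw [Cht98.wEnd_sg] at this
  exact (k b e.1).not_gt this

theorem okZ {U Up R : FD} {d : Dat J σ a U.V Up.V R.V} (hJ : J.OK) (H : Nul d) {z}
    (hβ : d.D.Adm ⟨⟨d.N, d.Jc, d.pZ, d.ρZ, d.jZ⟩, d.AZ, d.ΦZ, z⟩) (τ : ℝ) : (d.Z τ).OK := by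
  have hD := (hJ.xs d.x).1.yd
  have c := exists_cbc.1 (exists_cbc_cy hβ)
  refine ⟨Nk89.ok_cst hD.B hD.G (Cht98.tame_cyl _ (J.xs d.x).Y.dim.le)
      (fun a b c d => Nk89.cb_inv _ (hD.B.so a b c d)) (Nk89.cb_inv (f := d.D.l) _ hD.B.sl)
      (fun a => ?_) isClopen_univ isClopen_univ subset_rfl, ⟨rfl, rfl⟩, trivial, hβ.adm.ok,
    hβ.adm.conn, c.1, c.2.1, c.2.2.1, c.2.2.2.1, c.2.2.2.2, hβ.adm.pos, ?_, fun _ _ => ?_,
    fun _ => ?_, ?_, ?_, z0, fun _ => ka_nonneg _, fun b => ?_⟩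
  · cases a with
    | none => exact Cb_const _
    | some a => exact Nk89.cb_inv (f := d.D.a a) _ (hD.G.con.sm (some a))
  · simp only [Dat.Z, H.bZ]; exact Cb_const 0
  · simp only [Dat.Z, H.bZ]; exact map_zero _
  · simp only [Dat.Z, H.dZ]; exact Cb_const 0
  · simp only [Dat.Z, H.bp]; exact z0
  · simp only [Dat.Z, H.mo]; exact z0
  · have := cb_of (UC.tent d.R0 (fun _ => τ) (fun _ => 0) (fun _ => d.D.nk.sm_τ)
      (fun e => uc_of (d.D.nk.cd_τ.2 e)) b)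
    simp only [show d.D.nk.τ = Prod.snd from funext fun x => by simp [Nk.τ, YD.nk, tf],
      sub_zero] at this
    exact this

variable (J) in
/-- **LEAF NRM** -/
theorem nrm : Nk89.Nrm J := by
  classical
  intro σ a x q₀ δ y F U Up R
  have hJ := F.ok
  have hx : x ∈ cylW (J.cf a) := ⟨F.hd, F.pin⟩
  have ex : ∀ {x'}, x' ∈ (J.cf a).1 → x' = x := fun k =>
    Option.some.inj ((show J.hd a = some _ from k).symm.trans F.hd)
  have hb := F.sol.act hJ F.mem hx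
  have := J.conn_xs x
  obtain ⟨b1, b2, b3⟩ := brk_zero (F.sol.brk x hx) (F.tight.2 x hx)
  obtain ⟨d1, d2, d3⟩ := F.dec false (hb _)
  obtain ⟨d4, d5, d6⟩ := F.dec true (hb _)
  have cr := F.sol.crit x hx false
  have hβ : (J.xs x).D.Adm (y.β x false) := ⟨cr.sol.toAdm, cr.tmp⟩
  have hB := Λ.B_ok J.m (J.cf a)
  have ok := F.sol.ok hJ F.mem
  have hG := Λ.G_ok J.m ok.2
  have hD := (hJ.xs x).1.yd
  obtain ⟨c, i, u, R₁, -, k1, k2, k3, k4, k5, k6, k7, k8⟩ := (es hJ F.hd hb).nrm hB hG.P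
    F.sol.sol.toAdm hβ (ζ := y.ζ x false) (d := min d1 d4)
    (lt_min (by linarith [F.δ0]) (by linarith [F.δ0])) fun b => by
      cases b
      exacts [elim_mono d3 (min_le_left _ _), b1 ▸ b2 ▸ elim_mono d6 (min_le_right _ _)]
  have hβ' := adm_stab hβ k1
  have eq : (J.xs x).D.Eqv (y.β x false) (stab (y.β x false) c.m.J i) :=
    have h0 := admOn_univ.2 hβ.adm
    have k := stab_spec (c := cy (y.β x false)) k1 isOpen_univ h0
    ⟨_, _, k.2.cEq hD.B h0 k.1⟩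
  have cr' := crit_iso (hJ.okZ x) (hJ.xs x).2 cr hβ' eq
  let d : Dat J σ a U.V Up.V R.V := dat hb c
    (fun k => Cnt93.Rh (J.cut _ k) (J.cut _ k) _ _ u 1 (y.ψ k)) _ i (max R₁ 6) U Up R
  have ok' : d.y.Ok := ⟨ad0 k2, ok.2⟩
  have iso : Job.Iso d.y y := Job.Iso.symm (y := y) (y' := d.y) ⟨rfl, u, _, k3, fun k =>
    (Cnt93.eqv_iff ((lg_refl hB hG isOpen_univ).of_ceq ok.1 (ad0 k2) k3)
      (Cnt93.rel_refl hB (subset_univ _))).2 ⟨1, rfl⟩⟩ ok ok'
  obtain ⟨ξ, S⟩ := F.sol.iso hJ F.mem ok' iso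
  have eβ : ∀ b, d.y.β x b = stab (y.β x false) c.m.J i := fun b => by
    simp only [d, dat, update_self]
  have eζ : ∀ b, d.y.ζ x b = 1 := fun b => by simp only [d, dat, update_self]; rfl
  have e0 : ∀ v, d.β v = stab (y.β x false) c.m.J i := dat_β hb c _ _ i _ U Up R
  have cS := exists_cbc.1 k4
  have nul : Nul d := ⟨rfl, rfl, rfl, rfl, rfl, rfl, rfl, rfl⟩
  have lt : ∀ {t}, max R₁ 6 < t → R₁ < t := (le_max_left _ _).trans_lt
  refine ⟨d, iso, nul, ⟨hJ, F.nW, F.nΛ, F.mem, F.fr, F.hd, F.unc,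
    ⟨S.cell, S.inf, S.sol, S.sub, S.cut, S.drop, fun x' b ha => ?_, fun x' hx' b => ?_,
      fun x' hx' => ?_, S.int, S.lev⟩, F.tight, ?_, F.int, F.δ0, F.δ1,
    le_max_of_le_right (by norm_num),
    ⟨Cht98.jFam_ok hJ ok.2 ((cd_ee y.s).comp (contDiff_const.prodMk contDiff_id)) isClopen_univ
      isClopen_univ subset_rfl, ⟨rfl, rfl⟩, ?_, k2.ok, k2.conn, cS.1, cS.2.1, cS.2.2.1, cS.2.2.2.1,
      cS.2.2.2.2, k2.pos, Cb_const 0, fun _ _ => map_zero _, fun _ => Cb_const 0, z0, z0, z0,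
      fun _ => add_nonneg (ka_nonneg _) (ka_nonneg _), fun b => ?_⟩, okZ hJ nul hβ',
    fun b z s _ k _ => (k5 b (z, s) (lt k)).1, fun e b z s _ k _ => (k5 b (z, s) (lt k)).2.1 e,
    fun b z s _ k _ => (k5 b (z, s) (lt k)).2.2, fun _ _ _ _ _ _ => rfl, fun _ _ _ _ _ _ _ => rfl,
    fun _ _ _ _ _ _ => rfl, fun _ _ => ⟨rfl, rfl⟩, ⟨_, lt_min d2 d5,
      fun e w => (k6 e w).imp fun _ k b z hz => k b z (lt hz),
      fun w => (k7 w).imp fun _ k b z hz => k b z (lt hz)⟩,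
    fun b => ⟨(eβ b).trans (e0 0).symm, eζ b⟩, .of_forall fun v => e0 v ▸ cr', .inl ⟨rfl, rfl⟩,
    F.δ2⟩, le_max_right _ _, rfl, e0 0 ▸ eq⟩
  · obtain rfl := ex ha.2.2.2
    rw [eβ, eζ]
    exact k8 b
  · obtain rfl := ex hx'.1
    exact eβ b ▸ cr'
  · obtain rfl := ex hx'.1
    rw [eβ, eβ, eζ, eζ, show d.y.k x' = 0 from b3, show d.y.j x' = 0 from F.tight.2 _ hx']
    exact .nil _ _
  · obtain ⟨z, hz⟩ := F.top
    obtain ⟨-, v, η, e, -⟩ := iso
    refine ⟨z, fun k => hz ((e.Φ z trivial).trans ?_)⟩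
    show cs _ _ (v z (d.y.x.Φ z)) = 0
    rw [k, map_zero, ← csL_apply, map_zero]
  · have : ee (σ := σ) (a := a) y.s 1 0 = y.s := funext fun a' => by
      simp only [ee]
      split_ifs with k k'
      exacts [add_zero _, k' ▸ (hJ.eq_one F.mem F.sol.ov F.hd hx.1).symm, rfl]
    show J.Θ (ee y.s 1 0) ∈ M.O (J.cf a).1
    rw [this]
    exact ok.2
  · have t := fun (b' : Bool) (e : ℝ) (he : |e| ≤ 1) =>
      cb_ka (d.KS b').sm_τ (d.KS b').cd_τ.2 he (-d.R0) b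
    have s := fun (b' : Bool) (e : ℝ) => (Neck67.cd_aff cd_ka e (-d.R0)).contMDiff.comp
      (d.KS b').sm_τ
    have e := Pre.D_add (F := d.FS.F0.toPre) (s false 1) (s true (-1)) b
    refine (congrArg (d.FS.F0.D b) (funext fun w => ?_)).trans e ▸
      Cb_add (t false 1 (by simp)) (t true (-1) (by simp))
    simp [Dat.S, Dat.hS, sub_eq_add_neg]

end Crest.Agent.X212.Nrm67
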