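import Crest.Agent.X212.End3.Pnt
import Crest.Agent.X212.Eqv71.Cyl

/-!
# Row 212, NRM (helper67): an exponentially converging configuration is equivalent to one whose
module is literal on the ends and which converges in the trivial gauge
-/

set_option autoImplicit false
set_option linter.unusedSectionVars false
noncomputable section
open scoped Manifold ContDiff Topology InnerProductSpace
open MeasureTheory Set Function Filter

namespace Crest.Agent.X212.Nrm67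
open An An.Pre Sob92 Prm93 Nd18 Cyf70 Pj41 Eqv71 End3
open Tmp64 (AdmOn admOn_univ)

variable {E : Type} [NormedAddCommGroup E] [NormedSpace ℝ E] [FiniteDimensional ℝ E]
  [MeasurableSpace E] [BorelSpace E]
  {HM : Type} [TopologicalSpace HM] {I : ModelWithCorners ℝ E HM} [I.Boundaryless]
  {M : Type} [TopologicalSpace M] [ChartedSpace HM M] [IsManifold I ∞ M]
  [MeasurableSpace M] [T2Space M] [BorelSpace M] [SecondCountableTopology M]
  {lam : Type} [Fintype lam] {r : ℕ}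

section gen
variable {ι : Type} [Fintype ι] {B : Base M ι lam} {G : Geo I M ι lam}

/-- the defect of `a` -/
def df (F : Fr I M ι) (c c₀ : Cfg M ι lam r) (a : M → CL c.m.V c₀.m.V) (b : ι) (x : M) :
    En (Fin c₀.m.N) := -(F.D b a x + c₀.W b x ∘L a x - a x ∘L c.W b x) ∘L trn (a x)

/-- the transport of `c` to the module of `c₀` -/
@[reducible] def tp (F : Fr I M ι) (c c₀ : Cfg M ι lam r) (a : M → CL c.m.V c₀.m.V) (ζ : Circle) :
    Cfg M ι lam r :=
  ⟨c₀.m, fun b x => c₀.W b x + df F c c₀ a b x, fun x => cs c₀.m.J ζ (a x (c.Φ x)),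
    ((ζ : ℂ) ^ 2) • c.z⟩

theorem tp_spec (hB : B.OK I) (hG : G.F.P = B.P) {c c₀ : Cfg M ι lam r} (hc : c.Adm B G)
    (h₀ : c₀.Adm B G) {a : M → CL c.m.V c₀.m.V} (ha : Iso0 I c.m c₀.m univ a) (ζ : Circle) :
    (tp G.F c c₀ a ζ).Adm B G ∧ CEq G.F c (tp G.F c c₀ a ζ) univ id (fun x b a => B.P b a x) B.l a ζ ∧
      ∀ b x, c₀.m.p x * df G.F c c₀ a b x * c₀.m.p x = df G.F c c₀ a b x := by
  have k := fun x => cov_g hG isOpen_univ (OK.on hc.ok _) (OK.on h₀.ok _) ha (IsConn.on hc.conn _)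
    (IsConn.on h₀.conn _) (mem_univ x) (η := fun b => hsL (df G.F c c₀ a b x)) fun _ => rfl
  have sa : Sm I a := fun x => ha.su x trivial
  have cn : c₀.m.IsConn B G (tp G.F c c₀ a ζ).W := by
    have := Mod61.isConn_addC h₀.ok h₀.conn
      (β := fun x => WithLp.toLp 2 fun b => hsL (df G.F c c₀ a b x)) (fun b x => ?_)
      (fun x => (k x).1) fun x => (k x).2.1
    · convert this using 1
      funext b x
      exact congrArg (c₀.W b x + ·) (opL_hsL (df G.F c c₀ a b x)).symm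
    have := FSm.cc (((dv_smoothAt (G.F.sm b x) (sa x)).add (FSm.cc (h₀.conn.cc.sm b x) (sa x))).sub
      (FSm.cc (sa x) (hc.conn.cc.sm b x))) (FSm.ad (sa x))
    simp only [ad_trn] at this
    exact hsL.contMDiff.contMDiffAt.comp x this.neg
  refine ⟨⟨h₀.ok, cn, (csL c₀.m.J ζ).contMDiff.comp (sa.clm_apply hc.sm), fun x => ?_,
    hc.z.imp id fun e => by simp [norm_smul, e]⟩, ⟨ha.mEq (OK.on hc.ok _) (OK.on h₀.ok _),
      (par0_iff ((IsConn.on cn _).proj' hB)).1 fun x _ b => by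
        simpa only [opL_hsL] using (k x).2.2 b, fun _ _ => rfl, rfl⟩, fun b x => ?_⟩
  · rw [pp_cs h₀.ok, ha.pp (mem_univ x), hc.pos]
  · have h1 := Wz78.g_p ((k x).1 b)
    have h2 := Wz78.g_p' h₀.ok ((k x).1 b)
    rw [opL_hsL] at h1 h2
    rw [h1, h2]

theorem alg {S : Type} [Ring S] {x v w f t : S} (h : (x - v * w) * t = 0) (k : v * f * t = f) :
    (x - v * (w + f)) * t = -f := by
  rw [mul_add, ← sub_sub, sub_mul, h, k, zero_sub]

end gen

variable {E3 : Type} [NormedAddCommGroup E3] [NormedSpace ℝ E3] [FiniteDimensional ℝ E3]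
  [MeasurableSpace E3] [BorelSpace E3]
  {H3 : Type} [TopologicalSpace H3] {I3 : ModelWithCorners ℝ E3 H3} [I3.Boundaryless]
  {Y : Type} [TopologicalSpace Y] [ChartedSpace H3 Y] [IsManifold I3 ∞ Y] [T2Space Y]
  [MeasurableSpace Y] [BorelSpace Y] [SecondCountableTopology Y] [CompactSpace Y]
  {κ : Type} [Fintype κ] {D : YD I3 Y κ lam} {B : Base M (Option κ) lam}
  {G : Geo I M (Option κ) lam} {A : Type} [Fintype A]
  {N : Type} [NormedAddCommGroup N] [NormedSpace ℝ N]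

/-- finitely many ends over one cross-section -/
structure Es (K : A → Nk D B G) (σ : A → ℝ) (l : A → Filter ℝ) (R₀ : ℝ) : Prop where
  hl : ∀ e, l e = atTop ∧ σ e = 1 ∨ l e = atBot ∧ σ e = -1
  hd : Pairwise (Disjoint on fun e => (K e).ψ.target)
  J : ∀ e t, R₀ ≤ σ e * t → t ∈ (K e).J
  cov : IsCompact {x | ∀ e, x ∈ (K e).ψ.target → σ e * (K e).tm x ≤ R₀}

namespace Es
variable {K : A → Nk D B G} {σ : A → ℝ} {l : A → Filter ℝ} {R₀ R : ℝ} (h : Es K σ l R₀)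
  (hR : R₀ ≤ R)
include h

theorem ev (e : A) {S : Set ℝ} (hS : S ∈ l e) : ∀ᶠ R in atTop, ∀ t, R ≤ σ e * t → t ∈ S := by
  rcases h.hl e with ⟨k1, k2⟩ | ⟨k1, k2⟩
  · obtain ⟨a, ha⟩ := mem_atTop_sets.1 (k1 ▸ hS)
    exact (eventually_ge_atTop a).mono fun R h t ht => ha t (by rw [k2] at ht; linarith)
  · obtain ⟨a, ha⟩ := mem_atBot_sets.1 (k1 ▸ hS)
    exact (eventually_ge_atTop (-a)).mono fun R h t ht => ha t (by rw [k2] at ht; linarith)

theorem mem (e : A) (T : ℝ) : {t | T < σ e * t} ∈ l e := by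
  rcases h.hl e with ⟨k1, k2⟩ | ⟨k1, k2⟩ <;> rw [k1, k2]
  · simpa using eventually_gt_atTop T
  · exact (eventually_lt_atBot (-T)).mono fun t ht => by simpa [lt_neg] using ht

theorem abs (e : A) {t : ℝ} (ht : 0 < σ e * t) : |t| = σ e * t := by
  rcases h.hl e with ⟨-, k⟩ | ⟨-, k⟩ <;> rw [k] at ht ⊢
  · rw [one_mul, abs_of_pos (by linarith)]
  · rw [neg_one_mul, abs_of_neg (by linarith)]

omit h in
theorem op (e : A) (R : ℝ) : IsOpen {z : Y × ℝ | R < σ e * z.2} :=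
  isOpen_lt continuous_const (by fun_prop)

include hR

theorem src {e : A} {z : Y × ℝ} (hz : R < σ e * z.2) : z ∈ (K e).ψ.source :=
  (K e).mem_src.2 (h.J e _ (hR.trans hz.le))

theorem Dw {f : M → N} {e : A} {g : Y × ℝ → N} (k : ∀ z, R < σ e * z.2 → f ((K e).ψ z) = g z)
    (w : List (Option κ)) {z : Y × ℝ} (hz : R < σ e * z.2) :
    G.F.Dw w f ((K e).ψ z) = D.Z.Dw w g z :=
  ((K e).rel.Dw (h.src hR hz) w (((op e R).eventually_mem hz).mono fun y hy => (k y hy).symm)).symm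

/-- bounds on the far ends suffice -/
theorem cb {f : M → N} (hf : Sm I f) {g : A → Y × ℝ → N}
    (k : ∀ e z, R < σ e * z.2 → f ((K e).ψ z) = g e z)
    (b : ∀ e w, ∃ C, ∀ z, R < σ e * z.2 → ‖D.Z.Dw w (g e) z‖ ≤ C) : G.F.Cb f := by
  have cp : ∀ e, IsCompact {t | R₀ ≤ σ e * t ∧ σ e * t ≤ R} := fun e =>
    (isCompact_Icc (a := -(|R₀| + |R|)) (b := |R₀| + |R|)).of_isClosed_subset
      (isClosed_Icc.preimage (f := fun t => σ e * t) (by fun_prop)) fun t ht => by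
        have := abs_nonneg R₀; have := abs_nonneg R; have := neg_abs_le R₀; have := le_abs_self R
        rcases h.hl e with ⟨-, k⟩ | ⟨-, k⟩ <;> simp only [k, mem_ofPred_eq] at ht <;>
          constructor <;> linarith
  refine cb_of_words hf fun w => ?_
  choose C hC using fun e => b e w
  obtain ⟨C', hC'⟩ := (finite_range C).bddAbove
  obtain ⟨C'', hC''⟩ := (h.cov.union (isCompact_iUnion fun e => (Cht98.nck (K e)).isCompact (cp e)
    fun t ht => h.J e t ht.1)).exists_bound_of_continuousOn (sm_Dw hf w).continuous.continuousOn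
  refine ⟨max C' C'', fun x => ?_⟩
  by_cases a1 : ∃ e, R < σ e * (K e).tm x
  · obtain ⟨e, he⟩ := a1
    obtain ⟨z, hz, rfl⟩ := nk_image (K e) (S := {t | R < σ e * t})
      (fun t ht => h.J e t (hR.trans (le_of_lt ht))) he
    rw [h.Dw hR (k e) w hz]
    exact (hC e z hz).trans ((hC' ⟨e, rfl⟩).trans (le_max_left _ _))
  refine (hC'' x (by_contra fun a2 => a2 (.inl fun e _ => by_contra fun a3 => a2 (.inr ?_)))).trans
    (le_max_right _ _)
  exact mem_iUnion.2 ⟨e, (not_le.1 a3).le, not_lt.1 fun a4 => a1 ⟨e, a4⟩⟩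

theorem cb_lit {f : M → N} (hf : Sm I f) {g : Y × ℝ → N}
    (k : ∀ e z, R < σ e * z.2 → f ((K e).ψ z) = g z) (b : D.Z.Cb g) : G.F.Cb f :=
  let ⟨C, hC⟩ := b
  h.cb hR hf (g := fun _ => g) k fun _ w => ⟨C _, fun z _ => hC.2 _ w le_rfl z⟩

omit hR in
/-- a reference which is literal on all ends with one embedding -/
theorem ref [Nonempty Y] (hG : G.F.P = B.P) {c : Cfg M (Option κ) lam r} (hc : c.Adm B G)
    {β : YC Y κ lam} (hβ : D.Adm β) {u : A → Y × ℝ → CL c.m.V β.m.V} (hR : R₀ ≤ R)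
    (hu : ∀ e, Iso0 (IC I3) (cmM (K e).ψ c.m) (cy β).m {z | R < σ e * z.2} (u e)) :
    ∃ (c₀ : Cfg M (Option κ) lam r) (i : CL β.m.V c₀.m.V) (a : M → CL c.m.V c₀.m.V),
      Emb β.m.J c₀.m.J i ∧ c₀.Adm B G ∧ Iso0 I c.m c₀.m univ a ∧ ∀ e z, R + 4 < σ e * z.2 →
        a ((K e).ψ z) = i ∘L u e z ∧ LitAt c₀ β i ((K e).ψ z) z.1 := by
  obtain ⟨π, hπ⟩ : ∃ π : M → Y, ∀ e, ∀ z ∈ (K e).ψ.source, π ((K e).ψ z) = z.1 :=
    ⟨pick _ (fun e x => ((K e).ψ.symm x).1) (Classical.arbitrary Y), fun e z hz => by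
      rw [pick_eq h.hd _ _ ((K e).ψ.map_source hz), (K e).ψ.left_inv hz]⟩
  obtain ⟨v, hv⟩ : ∃ v : M → CL c.m.V β.m.V, ∀ e, ∀ z ∈ (K e).ψ.source, v ((K e).ψ z) = u e z :=
    ⟨pick _ (fun e x => u e ((K e).ψ.symm x)) 0, fun e z hz => by
      rw [pick_eq h.hd _ _ ((K e).ψ.map_source hz), (K e).ψ.left_inv hz]⟩
  have k : ∀ e, AdmOn (cmC π β) B G ((K e).ψ '' {z | R < σ e * z.2}) ∧
      Iso0 I c.m (cmM π β.m) ((K e).ψ '' {z | R < σ e * z.2}) v := fun e => by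
    have o := op (Y := Y) (σ := σ) e R
    have s : ∀ z ∈ {z : Y × ℝ | R < σ e * z.2}, z ∈ (K e).ψ.source := fun z hz => h.src hR hz
    have g := (nk_gRel (K e)).mono o s
    have k1 := (hu e).congr o fun z hz => hv e z (s z hz)
    refine ⟨g.admOn_iff.1 (admOn_same o (fun z hz => congrArg β.m.p (hπ e z (s z hz)))
        (fun b z hz => congrArg (β.m.ρ b) (hπ e z (s z hz)))
        (fun z hz => congrArg β.m.j (hπ e z (s z hz)))
        ((admOn_univ.2 hβ.adm).mono (subset_univ _))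
        (fun b z hz => congrArg (β.W b) (hπ e z (s z hz)))
        (fun z hz => congrArg β.Φ (hπ e z (s z hz))) (.inl rfl)),
      g.fr.iso0_push ⟨k1.su, fun z hz => ?_, k1.J, fun z hz b => ?_, fun z hz t => ?_⟩⟩
    · dsimp only; rw [hπ e z (s z hz)]; exact k1.iso z hz
    · dsimp only; rw [hπ e z (s z hz)]; exact k1.ρ z hz b
    · dsimp only; rw [hπ e z (s z hz)]; exact k1.j z hz t
  have hJ : ∀ e t, R ≤ σ e * t → t ∈ (K e).J := fun e t ht => h.J e t (hR.trans ht)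
  obtain ⟨f, h1, h2, h3⟩ := exists_height hJ
  have h4 : ∀ x ∈ {x | 0 < f x}, ∃ e, x ∈ (K e).ψ '' {z | R < σ e * z.2} := fun x hx =>
    (h2 x hx).imp fun e he => nk_image (K e) (S := {t | R < σ e * t})
      (fun t ht => hJ e t (le_of_lt ht)) he
  obtain ⟨c', i₁, i, a, q1, q2, q3, -, -, q4, q5, -⟩ := exists_lit (c₂ := cmC π β) hG hc
    (admOn_of_local hβ.adm.ok.Jsq hβ.adm.ok.Jsk (.inl rfl) fun x hx =>
      let ⟨e, he⟩ := h4 x hx; ⟨_, he, (k e).1⟩)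
    (iso0_of_local fun x hx => let ⟨e, he⟩ := h4 x hx; ⟨_, he, (k e).2⟩) h1 fun _ hx => hx
  refine ⟨c', i, a, q1.e₂, q2, q3, fun e z hz => ?_⟩
  have s := h.src (R := R + 4) (by linarith) hz
  have t := h3 e ((K e).ψ z) (by rw [(K e).tm_ψ z s]; exact hz.le)
  have j := q5 _ t
  rw [q4 _ (by linarith), hv e z s, ← hπ e z s]
  exact ⟨rfl, j.p, j.ρ, j.j, j.W, j.Φ⟩

omit h hR in
theorem dc {N' : Type} [NormedAddCommGroup N'] [NormedSpace ℝ N'] (L : N →L[ℝ] N')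
    {f : A → Y × ℝ → N'} {g : A → Y × ℝ → N} (k : ∀ e z, R < σ e * z.2 → f e z = L (g e z))
    (s : ∀ e z, R < σ e * z.2 → FSm (IC I3) (g e) z) {w : List (Option κ)} {θ : Y × ℝ → ℝ}
    (h0 : ∀ z, 0 ≤ θ z) (b : ∀ e, ∃ C, ∀ z, R < σ e * z.2 → ‖D.Z.Dw w (g e) z‖ ≤ C * θ z) :
    ∃ C, ∀ e z, R < σ e * z.2 → ‖D.Z.Dw w (f e) z‖ ≤ C * θ z := by
  choose C hC using b
  obtain ⟨C', hC'⟩ := (finite_range C).bddAbove
  refine ⟨‖L‖ * C', fun e z hz => ?_⟩
  rw [Dw_congr w (((op e R).eventually_mem hz).mono (k e)), Dw_clm_on (op e R) L w (s e) z hz,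
    mul_assoc]
  exact (L.le_opNorm _).trans (mul_le_mul_of_nonneg_left ((hC e z hz).trans
    (mul_le_mul_of_nonneg_right (hC' ⟨e, rfl⟩) (h0 z))) (norm_nonneg _))

theorem cb_dec {f f₀ : M → N} (hf : Sm I f) (hf₀ : Sm I f₀) {g : Y × ℝ → N}
    (k : ∀ e z, R < σ e * z.2 → f₀ ((K e).ψ z) = g z) (b : D.Z.Cb g) {d : ℝ} (hd : 0 ≤ d)
    (t : ∀ w, ∃ C, ∀ e z, R < σ e * z.2 →
      ‖D.Z.Dw w (fun z => f ((K e).ψ z) - g z) z‖ ≤ C * Real.exp (-d * |z.2|)) : G.F.Cb f := by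
  have := Cb_add (h.cb_lit hR hf₀ k b) (h.cb hR (hf.sub hf₀) (g := fun e z => f ((K e).ψ z) - g z)
    (fun e z hz => congrArg (f _ - ·) (k e z hz)) fun e w => (t w).elim fun C hC =>
      ⟨|C|, fun z hz => (hC e z hz).trans ((mul_le_mul_of_nonneg_right (le_abs_self C)
        (Real.exp_pos _).le).trans (mul_le_of_le_one_right (abs_nonneg C) (Real.exp_le_one_iff.2
          (mul_nonpos_of_nonpos_of_nonneg (neg_nonpos.2 hd) (abs_nonneg _)))))⟩)
  convert this using 1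
  exact funext fun x => (add_sub_cancel _ _).symm

omit hR in
theorem sm_ev {f : A → Y × ℝ → N} {d : ℝ} (hd : 0 < d) (t : ∀ w, ∃ C, ∀ e z, R < σ e * z.2 →
    ‖D.Z.Dw w (f e) z‖ ≤ C * Real.exp (-d * |z.2|)) (k : ℕ) {η : ℝ} (hη : 0 < η) :
    ∀ᶠ T in atTop, ∀ w : List (Option κ), w.length ≤ k → ∀ e z, T < σ e * z.2 →
      ‖D.Z.Dw w (f e) z‖ ≤ η := by
  refine (eventually_all_finite (List.finite_length_le (Option κ) k)).2 fun w _ => ?_
  obtain ⟨C, hC⟩ := t w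
  have h3 : Tendsto (fun s => |C| * Real.exp (-d * s)) atTop (𝓝 (|C| * 0)) :=
    (Real.tendsto_exp_atBot.comp (tendsto_id.const_mul_atTop_of_neg (neg_lt_zero.2 hd))).const_mul _
  rw [mul_zero] at h3
  filter_upwards [h3.eventually (gt_mem_nhds hη), eventually_ge_atTop R, eventually_ge_atTop 0]
    with T h1 h2 h4 e z hz
  refine (hC e z (h2.trans_lt hz)).trans (le_trans ?_ h1.le)
  rw [h.abs e (h4.trans_lt hz)]
  exact mul_le_mul (le_abs_self C) (Real.exp_le_exp.2 (by nlinarith)) (Real.exp_pos _).le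
    (abs_nonneg C)

omit hR in
/-- **normal form** -/
theorem nrm [Nonempty Y] (hB : B.OK I) (hG : G.F.P = B.P) {c : Cfg M (Option κ) lam r}
    (hc : c.Adm B G) {β : YC Y κ lam} (hβ : D.Adm β) {ζ : Circle} {d : ℝ} (hd : 0 < d)
    (hl : ∀ e, (K e).ELim d c β ζ (l e)) :
    ∃ (c' : Cfg M (Option κ) lam r) (i : CL β.m.V c'.m.V) (a : M → CL c.m.V c'.m.V) (R : ℝ),
      R₀ ≤ R ∧ Emb β.m.J c'.m.J i ∧ c'.Adm B G ∧
      CEq G.F c c' univ id (fun x b a => B.P b a x) B.l a ζ ∧ (∃ C, CBc G.F.toPre c' C) ∧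
      (∀ e z, R < σ e * z.2 → c'.m.p ((K e).ψ z) = cjL i (β.m.p z.1) ∧
        (∀ b, c'.m.ρ b ((K e).ψ z) = cjL i (β.m.ρ b z.1)) ∧
          c'.m.j ((K e).ψ z) = cjL i ∘L β.m.j z.1) ∧
      (∀ b w, ∃ C, ∀ e z, R < σ e * z.2 → ‖D.Z.Dw w (fun z => c'.W b ((K e).ψ z) -
        cjL i (β.W b z.1)) z‖ ≤ C * Real.exp (-d * |z.2|)) ∧
      (∀ w, ∃ C, ∀ e z, R < σ e * z.2 → ‖D.Z.Dw w (fun z => c'.Φ ((K e).ψ z) - i (β.Φ z.1)) z‖ ≤
        C * Real.exp (-d * |z.2|)) ∧ ∀ e, (K e).Lim c' (stab β c'.m.J i) 1 (l e) := by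
  choose u S hS hJ h1 h2 using hl
  obtain ⟨R, ⟨hR, h0⟩, hRS⟩ := (((eventually_ge_atTop R₀).and (eventually_ge_atTop 0)).and
    (eventually_all.2 fun e => h.ev e (hS e))).exists
  have hR4 : R₀ ≤ R + 4 := by linarith
  have hi : ∀ {e} {z : Y × ℝ}, R + 4 < σ e * z.2 → R < σ e * z.2 := fun hz => by linarith
  have adm : ∀ e, AdmOn (cmC (K e).ψ c) D.B D.G {z | R < σ e * z.2} := fun e =>
    ((nk_gRel (K e)).mono (op e R) fun z hz => h.src hR hz).admOn_iff.2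
      ((admOn_univ.2 hc).mono (subset_univ _))
  have iu : ∀ e, Iso0 _ (cmM (K e).ψ c.m) (cy β).m {z | R < σ e * z.2} (u e) := fun e =>
    have s : {z : Y × ℝ | R < σ e * z.2} ⊆ univ ×ˢ S e := fun z hz =>
      ⟨trivial, hRS e _ (le_of_lt hz)⟩
    have k := (h1 e).m
    .of_mEq (op e R) ⟨k.su.mono s, fun x hx => k.uu x (s hx), fun x hx => k.uu' x (s hx),
      fun x hx => k.J x (s hx), fun x hx => k.ρ x (s hx), fun x hx => k.j x (s hx)⟩
      (adm e).ok (OK.on hβ.adm.ok _)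
  have dec : ∀ e k, ∃ C, ∀ z : Y × ℝ, R + 4 < σ e * z.2 → D.Cls ((K e).pb c) β (u e) ζ
      (Ioo (z.2 - 1) (z.2 + 1)) k (C * Real.exp (-d * |z.2|)) := fun e k =>
    (h2 e k).imp fun C hC z hz => hC z.2 fun s hs => hRS e s (by
      rcases h.hl e with ⟨-, k⟩ | ⟨-, k⟩ <;> rw [k] at hz ⊢ <;> linarith [hs.1, hs.2])
  have mid : ∀ z : Y × ℝ, z ∈ univ ×ˢ Ioo (z.2 - 1) (z.2 + 1) := fun z =>
    ⟨trivial, by linarith, by linarith⟩
  obtain ⟨c₀, i, a, q1, q2, q3, lit⟩ := h.ref hG hc hβ hR iu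
  obtain ⟨k1, k2, k3⟩ := tp_spec hB hG hc q2 q3 ζ
  have cb := exists_cbc.1 (exists_cbc_cy (adm_stab hβ q1))
  have eW : ∀ e b z, R + 4 < σ e * z.2 → (tp G.F c c₀ a ζ).W b ((K e).ψ z) - cjL i (β.W b z.1) =
      df G.F c c₀ a b ((K e).ψ z) := fun e b z hz => by
    rw [← (lit e z hz).2.W b]; exact add_sub_cancel_left _ _
  have gA : ∀ b w (L : En (Fin β.m.N) →L[ℝ] En (Fin c₀.m.N)) (f : A → Y × ℝ → En (Fin c₀.m.N)),
      (∀ e z, R + 4 < σ e * z.2 → f e z = L (D.dA ((K e).pb c) β (u e) b z)) → ∃ C, ∀ e z,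
        R + 4 < σ e * z.2 → ‖D.Z.Dw w (f e) z‖ ≤ C * Real.exp (-d * |z.2|) := fun b w L f k => by
    refine dc L k (fun e z hz => ?_) (fun _ => (Real.exp_pos _).le) fun e =>
      (dec e w.length).imp fun C hC z hz => (hC z hz).A b w le_rfl z (mid z)
    have su := (iu e).su z (hi hz)
    have := FSm.cc (((dv_smoothAt (D.Z.sm b z) su).add (FSm.cc (hβ.adm.conn.cc.sm b z) su)).sub
      (FSm.cc su ((adm e).conn.sm b z (hi hz)))) (FSm.ad su)
    exact this.congr_of_eventuallyEq (.of_forall fun y => congrArg (_ ∘L ·) (ad_trn _).symm)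
  have eD : ∀ e b z, R + 4 < σ e * z.2 → df G.F c c₀ a b ((K e).ψ z) =
      -cjL i (D.dA ((K e).pb c) β (u e) b z) := fun e b z hz => by
    have e1 : G.F.D b a ((K e).ψ z) = i ∘L D.Z.D b (u e) z :=
      (h.Dw hR4 (fun z hz => (lit e z hz).1) [b] hz).trans
        (dv_clm (ContinuousLinearMap.compL ℝ c.m.V _ _ i) ((iu e).su z (hi hz)).md)
    rw [df, e1, (lit e z hz).2.W b, (lit e z hz).1]
    exact congrArg Neg.neg (dA_emb q1.iso _ _ _ _)
  have nA := fun b w => gA b w (-cjL i) _ fun e z hz => (eW e b z hz).trans (eD e b z hz)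
  have nB := fun b w => gA b w (cjL i) (fun e => D.dA ((K e).pb (tp G.F c c₀ a ζ))
      (stab β c₀.m.J i) (fun z => cjL i (β.m.p z.1)) b) fun e z hz => by
    have a1 := norm_le_zero_iff.1 ((cls_of_lit (K e) hβ q1 (isOpen_lt continuous_const
      (show Continuous fun t => σ e * t by fun_prop)) (fun z hz => (lit e z hz).2) 0).A b []
        le_rfl z ⟨trivial, hz⟩)
    have a3 := k3 b ((K e).ψ z)
    have a4 : trn (c₀.m.p ((K e).ψ z)) = c₀.m.p ((K e).ψ z) :=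
      (ad_trn _).symm.trans ((OK.on q2.ok univ).prj trivial).herm
    rw [(lit e z hz).2.p] at a3 a4
    refine (alg a1 ((congrArg (HMul.hMul _) a4).trans a3)).trans ?_
    rw [eD e b z hz, neg_neg]
  have nP : ∀ w, ∃ C, ∀ e z, R + 4 < σ e * z.2 → ‖D.Z.Dw w (fun z => (tp G.F c c₀ a ζ).Φ
      ((K e).ψ z) - i (β.Φ z.1)) z‖ ≤ C * Real.exp (-d * |z.2|) := fun w => by
    refine dc i (g := fun e => YD.dP ((K e).pb c) β (u e) ζ) (fun e z hz => ?_)
      (fun e z hz => ?_) (fun _ => (Real.exp_pos _).le) fun e =>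
        (dec e w.length).imp fun C hC z hz => (hC z hz).P w le_rfl z (mid z)
    · have e : ∀ v, c₀.m.J (i v) = i (β.m.J v) := fun v => DFunLike.congr_fun q1.J v
      show cs _ _ (a _ _) - _ = _
      rw [(lit _ z hz).1, YD.dP, map_sub]
      simp only [cs, map_add, map_smul, ContinuousLinearMap.comp_apply, e]
      rfl
    · exact ((csL β.m.J ζ).contMDiff.contMDiffAt.comp z
        (((iu e).su z (hi hz)).clm_apply ((adm e).sm z (hi hz)))).sub (hβ.adm.sm z)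
  refine ⟨tp G.F c c₀ a ζ, i, a, R + 4, hR4, q1, k1, k2, exists_cbc.2
    ⟨h.cb_lit hR4 q2.ok.sp (fun e z hz => (lit e z hz).2.p) cb.1, fun b =>
      h.cb_lit hR4 (q2.ok.sρ b) (fun e z hz => (lit e z hz).2.ρ b) (cb.2.1 b),
      h.cb_lit hR4 q2.ok.sj (fun e z hz => (lit e z hz).2.j) cb.2.2.1, fun b =>
      h.cb_dec hR4 (fun x => k1.conn.cc.sm b x) (fun x => q2.conn.cc.sm b x)
        (fun e z hz => (lit e z hz).2.W b) (cb.2.2.2.1 b) hd.le (nA b),
      h.cb_dec hR4 k1.sm q2.sm (fun e z hz => (lit e z hz).2.Φ) cb.2.2.2.2 hd.le nP⟩,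
    fun e z hz => ⟨(lit e z hz).2.p, (lit e z hz).2.ρ, (lit e z hz).2.j⟩, nA, nP,
    fun e => ⟨fun z => cjL i (β.m.p z.1), fun k η hη => ?_⟩⟩
  obtain ⟨T, ⟨t1, t2⟩, t3⟩ := (((eventually_all.2 fun b => h.sm_ev hd (nB b) k hη).and
    (h.sm_ev hd nP k hη)).and (eventually_ge_atTop (R + 4))).exists
  have o : IsOpen {t | T < σ e * t} := isOpen_lt continuous_const (by fun_prop)
  have cl := cls_of_lit (K e) hβ q1 o (fun z hz => (lit e z (t3.trans_lt hz)).2) 0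
  refine ⟨_, h.mem e T, fun t ht => h.J e t (by linarith [show T < _ from ht]), o, cl.m,
    fun b w hw z hz => t1 b w hw e z hz.2, fun w hw z hz => le_trans (le_of_eq (congrArg norm
      (Dw_congr w (((op e T).eventually_mem hz.2).mono fun y hy => ?_)))) (t2 w hw e z hz.2)⟩
  show cs _ _ (cjL i (β.m.p y.1) _) - _ = _
  rw [Circle.coe_one, Eqv71.cs_one, ← (lit e y (t3.trans_lt hy)).2.p]
  exact congrArg (· - _) ((admOn_univ.2 k1).pΦ (mem_univ ((K e).ψ y)))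

end Es
end Crest.Agent.X212.Nrm67
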